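import Vale.Agent.P144DM.Cont
import Vale.Agent.P144DC.Defs
import Vale.Agent.P144DD.Blk
import Vale.Agent.P144D.U.Dom

/-!
The majorant from the lattice bound.
-/

namespace Vale.Agent.P144DM

open Finset Filter Topology MeasureTheory Vale.Agent.P144 Vale.Agent.P144Z Vale.Agent.P144F
open Vale.Agent.P144DC (LM)
open Vale.Agent.P144DD (Maj BlkC)

theorem lat_of {J : ℝ} (h : LM J) (n m : ℕ) : ∃ C : ℝ, ∀ (Λ : Finset Site) (b : Option Config),
    (b = none ∨ b = some (fun _ => true) ∨ b = some fun _ => false) →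
      LatM (gibbs J 0 (fun _ => 0) (Kc / J) b Λ) Λ n m C := by
  obtain ⟨C, h⟩ := h n m
  have k : ∀ (Λ : Finset Site) (b : Option Config), (b = none ∨ b = some fun _ => true) →
      LatM (gibbs J 0 (fun _ => 0) (Kc / J) b Λ) Λ n m C := fun Λ b hb x y j s h1 h2 =>
    h b Λ x y j s hb (fun p _ v hv => h1 p v (by omega)) h2
  refine ⟨C, fun Λ b hb => ?_⟩
  rcases hb with rfl | rfl | rfl
  · exact k Λ _ (Or.inl rfl)
  · exact k Λ _ (Or.inr rfl)
  · intro x y j s h1 h2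
    have e := U2D.lcor_not (J := J) (lam := 0) (β := Kc / J) U1.pot_zero Λ (fun _ => true) x y j
    change |lcor (gibbs J 0 (fun _ => 0) (Kc / J) (some fun _ => !true) Λ) x y j| * _ * _ ≤ _
    rw [e, abs_mul, abs_pow, abs_neg, abs_one, one_pow, one_mul]
    exact k Λ _ (Or.inr rfl) x y j s h1 h2

theorem maj_lat {D : Set ℂ} {E : Fam} (hE : ∀ a > 0, IsSt (E a))
    (h : ∀ n m, ∃ C, ∀ a > 0, LatM (E a) (sites D a) n m C) : Maj D E := fun n m s hs => by
  obtain ⟨C, h⟩ := h n m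
  obtain ⟨C', k⟩ := maj_of hE h hs
  exact ⟨C', k.mono fun a ha p e1 e2 hp => ha p e1 e2 fun i => (hp i).2⟩

/-- Block C from the lattice bound. -/
theorem blkC_of (h : ∀ J > (0 : ℝ), LM J) : BlkC := by
  intro J hJ
  refine ⟨fun L ε D b _ hD hb => maj_lat (fun a _ => isSt_gibbs _ _ _ _ _ _) fun n m => ?_,
    fun E₀ hE => ?_⟩
  · obtain ⟨C, k⟩ := lat_of (h J hJ) n m
    obtain ⟨_, _, _, -, _, -, _, -, hD⟩ := hD
    refine ⟨C, fun a ha => ?_⟩
    have e : sites D a = disc D a := Set.ext fun v => ((hD a ha).1 v).symm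
    rw [e]
    refine k _ _ ?_
    rcases hb with rfl | rfl | rfl
    exacts [Or.inl rfl, Or.inr (Or.inl rfl), Or.inr (Or.inr rfl)]
  · obtain ⟨μ, h1, h2⟩ := hE
    refine maj_lat (fun a ha => ⟨μ a, (h1 a ha).1, h2 a⟩) fun n m => ?_
    obtain ⟨C, k⟩ := lat_of (h J hJ) n m
    refine ⟨C, fun a ha => ?_⟩
    rw [funext (h2 a)]
    exact lat_plane hJ (fun Λ => k Λ _ (Or.inl rfl)) (h1 a ha)

end Vale.Agent.P144DM
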