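import Vale.Agent.P144DM.Defs
import Vale.Agent.P144F.Zero
import Vale.Agent.P144Z.U1.Lim

/-!
From the lattice bound to the plane and to the continuum.
-/

namespace Vale.Agent.P144DM

open Finset Filter Topology MeasureTheory Vale.Agent.P144 Vale.Agent.P144Z Vale.Agent.P144F

/-- Products of spins. -/
def Mon (F : Config → ℝ) : Prop := ∃ A : Finset Site, ∀ σ, F σ = ∏ x ∈ A, sp (σ x)

theorem Mon.one : Mon fun _ => 1 := ⟨∅, by simp⟩

theorem Mon.spin (v : Site) : Mon fun σ => sp (σ v) := ⟨{v}, by simp⟩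

theorem Mon.mul {F G : Config → ℝ} (h : Mon F) (h' : Mon G) : Mon fun σ => F σ * G σ := by
  obtain ⟨A, h⟩ := h
  obtain ⟨B, h'⟩ := h'
  obtain ⟨S, -, e⟩ := exists_odd (A.disjSum B) (Sum.elim id id)
  exact ⟨S, fun σ => by rw [← e, prod_disjSum]; exact congrArg₂ _ (h σ) (h' σ)⟩

theorem Mon.prod {ι : Type*} (s : Finset ι) {F : ι → Config → ℝ} (h : ∀ i, Mon (F i)) :
    Mon fun σ => ∏ i ∈ s, F i σ := by
  classical
  induction s using Finset.induction_on with
  | empty => simpa using Mon.one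
  | insert i s hi ih => simpa only [prod_insert hi] using (h i).mul ih

theorem Mon.bm {F : Config → ℝ} (h : Mon F) : Bm F := by
  obtain ⟨A, h⟩ := h
  rw [funext h]
  exact Bm.prod _ fun x _ => ⟨(measurable_of_countable sp).comp (measurable_pi_apply x), 1,
    fun σ => (P144F.abs_sp _).le⟩

theorem lcor_exp {E : (Config → ℝ) → ℝ} (h : IsSt E) {n m : ℕ} (x : Fin n → Site)
    (y : Fin m → Site) (j : Fin m → Fin 2) : lcor E x y j = ∑ S ∈ (univ : Finset (Fin m)).powerset,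
      (∏ k ∈ univ \ S, -E fun τ => sp (τ (y k)) * sp (τ (y k + dir (j k)))) *
        E fun σ => (∏ i, sp (σ (x i))) * ∏ k ∈ S, sp (σ (y k)) * sp (σ (y k + dir (j k))) := by
  obtain ⟨μ, _, h⟩ := h
  unfold lcor
  simp only [h, ← integral_const_mul]
  rw [← integral_finsetSum _ fun S _ => ((Bm.const _).mul ((Mon.prod _ fun _ => Mon.spin _).mul
    (Mon.prod _ fun _ => (Mon.spin _).mul (Mon.spin _))).bm).int μ]
  congr 1
  funext σ
  simp only [sub_eq_add_neg, prod_add, mul_sum]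
  exact sum_congr rfl fun S _ => by ring

theorem lcor_lim {E : ℕ → (Config → ℝ) → ℝ} {E₀ : (Config → ℝ) → ℝ} (h : ∀ k, IsSt (E k))
    (h₀ : IsSt E₀) (hl : ∀ F, Mon F → Tendsto (fun k => E k F) atTop (𝓝 (E₀ F))) {n m : ℕ}
    (x : Fin n → Site) (y : Fin m → Site) (j : Fin m → Fin 2) :
    Tendsto (fun k => lcor (E k) x y j) atTop (𝓝 (lcor E₀ x y j)) := by
  simp only [lcor_exp (h _), lcor_exp h₀]
  exact tendsto_finsetSum _ fun S _ => (tendsto_finsetProd _ fun k _ =>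
    (hl _ ((Mon.spin _).mul (Mon.spin _))).neg).mul (hl _ ((Mon.prod _ fun _ => Mon.spin _).mul
      (Mon.prod _ fun _ => (Mon.spin _).mul (Mon.spin _))))

theorem lat_plane {J C : ℝ} (hJ : 0 < J) {n m : ℕ}
    (h : ∀ Λ : Finset Site, LatM (gibbs J 0 (fun _ => 0) (Kc / J) none Λ) Λ n m C)
    {μ : Measure Config} (hμ : IsPlaneState J 0 (fun _ => 0) (Kc / J) μ) :
    LatM (fun F => ∫ σ, F σ ∂μ) Set.univ n m C := by
  intro x y j s _ h2
  have := hμ.1
  have k := lcor_lim (E := fun M => gibbs J 0 (fun _ => 0) (Kc / J) none (P144.box M))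
    (E₀ := fun F => ∫ σ, F σ ∂μ) (fun _ => isSt_gibbs _ _ _ _ _ _) ⟨μ, this, fun _ => rfl⟩
    (by
      rintro F ⟨A, e⟩
      rw [funext e]
      refine Metric.tendsto_atTop.2 fun ε hε => ?_
      obtain ⟨M, hM⟩ := St.unif hJ A (half_pos hε)
      refine ⟨M, fun k hk => ?_⟩
      have := St.plane_cl hJ hμ A
      unfold H436.spA at this
      rw [Real.dist_eq, this]
      exact (hM _ (H436.box_mono hk) _ none).trans_lt (half_lt_self hε)) x y j
  refine le_of_tendsto ((k.abs.mul_const _).mul_const _) ?_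
  filter_upwards [H436.subset_box (univ.biUnion fun i => H436.boxAt (Sum.elim x y i) (s i + 1))]
    with M hM
  exact h _ x y j s (fun i v hv => hM (mem_biUnion.2 ⟨i, mem_univ _, MD.mem_boxAt_zd.2 hv⟩)) h2

theorem corr_st {E : (Config → ℝ) → ℝ} (h : IsSt E) (a : ℝ) (p : Pts) :
    corr a E p = (a ^ (-(1 / 8) : ℝ)) ^ p.n * a⁻¹ ^ p.m *
      lcor E (fun i => fl a (p.x i)) (fun k => fl a (p.y k)) p.j := by
  obtain ⟨μ, _, h⟩ := h
  unfold corr lcor
  rw [h, h, ← integral_const_mul]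
  congr 1
  funext σ
  simp only [prod_mul_distrib, prod_const, card_univ, Fintype.card_fin]
  ring

theorem maj_of {D : Set ℂ} {E : Fam} {n m : ℕ} {C : ℝ} (hE : ∀ a > 0, IsSt (E a))
    (h : ∀ a > 0, LatM (E a) (sites D a) n m C) {s : ℝ} (hs : 0 < s) :
    ∃ C' : ℝ, ∀ᶠ a in 𝓝[>] (0 : ℝ), ∀ p : Pts, p.n = n → p.m = m →
      (∀ i, Metric.ball (Sum.elim p.x p.y i) s ⊆ D) → ∀ t : Fin p.n ⊕ Fin p.m → ℝ,
      (∀ i, 0 < t i ∧ t i ≤ 1) →
      (∀ i i', i ≠ i' → t i ≤ ‖Sum.elim p.x p.y i - Sum.elim p.x p.y i'‖) →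
        |corr a (E a) p| * (∏ i, t (Sum.inl i) ^ (1 / 8 : ℝ)) * ∏ k, t (Sum.inr k) ≤ C' := by
  obtain ⟨r, r0, r1, rs⟩ : ∃ r : ℝ, 0 < r ∧ r ≤ 1 ∧ r ≤ s :=
    ⟨min 1 s, lt_min one_pos hs, min_le_left _ _, min_le_right _ _⟩
  refine ⟨rt (16 / r) ^ n * (16 / r) ^ m * C, ?_⟩
  filter_upwards [Ioo_mem_nhdsGT (show 0 < s / 8 by positivity)] with a ⟨ha, has⟩ p e1 e2 h1 t h2 h3
  obtain ⟨n', m', x, y, j⟩ := p
  simp only at e1 e2 h1 t h2 h3
  subst e1 e2
  have e : (Sum.elim (fun i => fl a (x i)) fun k => fl a (y k)) =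
      fun i => fl a (Sum.elim x y i) := by
    funext i
    cases i <;> rfl
  obtain ⟨u, u1, u2⟩ : ∃ u : Fin n' ⊕ Fin m' → ℕ, (∀ i, 8 * a * (u i + 1) ≤ max (8 * a) (r * t i)) ∧
      ∀ i, t i ≤ 16 / r * (a * (u i + 1)) := by
    refine ⟨fun i => ⌊r * t i / (8 * a)⌋₊ - 1, fun i => ?_, fun i => ?_⟩
    · have k := (le_div_iff₀ (by positivity)).1
        (Nat.floor_le (show 0 ≤ r * t i / (8 * a) by have := (h2 i).1; positivity))
      beta_reduce
      generalize ⌊r * t i / (8 * a)⌋₊ = w at k ⊢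
      rcases w with _ | w
      · simp
      · refine le_max_of_le_right ?_
        simp only [Nat.add_sub_cancel]
        push_cast at k
        linarith
    · have k := (div_lt_iff₀ (by positivity)).1 (Nat.lt_floor_add_one (r * t i / (8 * a)))
      beta_reduce
      generalize ⌊r * t i / (8 * a)⌋₊ = w at k ⊢
      have : (w : ℝ) + 1 ≤ 2 * (((w - 1 : ℕ) : ℝ) + 1) := by
        exact_mod_cast (by omega : w + 1 ≤ 2 * (w - 1 + 1))
      rw [div_mul_eq_mul_div, le_div_iff₀ r0]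
      nlinarith
  have k := h a ha (fun i => fl a (x i)) (fun k => fl a (y k)) j u (fun i v hv => h1 i (by
    have k1 := norm_fl ha ⟨a * v.1, a * v.2⟩ (Sum.elim x y i)
    rw [e] at hv
    rw [fl_pt ha] at k1
    have k2 : (zd v (fl a (Sum.elim x y i)) : ℝ) ≤ u i + 1 := by exact_mod_cast hv
    have k3 : r * t i ≤ s := (mul_le_of_le_one_right r0.le (h2 i).2).trans rs
    have k4 := (u1 i).trans (max_le (by linarith) k3)
    rw [mem_ball_iff_norm]
    nlinarith)) fun i i' hi => by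
      rw [e]
      have k1 := (h3 i i' hi).trans (norm_fl ha _ _)
      have k3 : r * t i ≤ t i := mul_le_of_le_one_left (h2 i).1.le r1
      have k2 : (0 : ℝ) ≤ zd (fl a (Sum.elim x y i)) (fl a (Sum.elim x y i')) := by positivity
      have k4 := (u1 i).trans (max_le (c := 8 * a * (zd (fl a (Sum.elim x y i))
        (fl a (Sum.elim x y i')) + 1)) (by nlinarith) (by nlinarith))
      have k5 := le_of_mul_le_mul_left k4 (by positivity)
      exact_mod_cast (le_of_add_le_add_right k5)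
  have q0 : 0 < 16 / r := by positivity
  have q1 := rt_pos q0
  have q2 := rt_pos ha
  rw [corr_st (hE a ha), abs_mul, abs_of_nonneg (by positivity)]
  refine le_trans ?_ (mul_le_mul_of_nonneg_left k (by positivity))
  have b1 : ∏ i, t (Sum.inl i) ^ (1 / 8 : ℝ) ≤
      ∏ i, rt (16 / r) * (rt a * ((u (Sum.inl i) : ℝ) + 1) ^ (1 / 8 : ℝ)) :=
    prod_le_prod (fun i _ => (rt_pos (h2 _).1).le) fun i _ => by
      have := rt_le (h2 _).1.le (u2 (Sum.inl i))
      rwa [rt_mul q0.le (by positivity), rt_mul ha.le (by positivity)] at this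
  have b2 : ∏ k, t (Sum.inr k) ≤ ∏ k, 16 / r * (a * ((u (Sum.inr k) : ℝ) + 1)) :=
    prod_le_prod (fun i _ => (h2 _).1.le) fun i _ => u2 _
  refine (mul_le_mul (mul_le_mul_of_nonneg_left b1 (by positivity)) b2
    (prod_nonneg fun i _ => (h2 _).1.le) (by positivity)).trans_eq ?_
  simp only [prod_mul_distrib, prod_const, card_univ, Fintype.card_fin, rt_inv ha, inv_pow]
  field_simp

end Vale.Agent.P144DM
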