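import Vale.Agent.P144D.Defs

/-!
The lattice form of the majorant.
-/

namespace Vale.Agent.P144DM

open Vale.Agent.P144 Vale.Agent.P144Z

/-- The bound on the lattice: `s i` is at most the distance from the point `i` to the other points
and to the complement of `Λ`. -/
def LatM (E : (Config → ℝ) → ℝ) (Λ : Set Site) (n m : ℕ) (C : ℝ) : Prop :=
  ∀ (x : Fin n → Site) (y : Fin m → Site) (j : Fin m → Fin 2) (s : Fin n ⊕ Fin m → ℕ),
    (∀ i v, zd v (Sum.elim x y i) ≤ s i + 1 → v ∈ Λ) →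
    (∀ i i', i ≠ i' → s i ≤ zd (Sum.elim x y i) (Sum.elim x y i')) →
      |lcor E x y j| * (∏ i, ((s (Sum.inl i) : ℝ) + 1) ^ (1 / 8 : ℝ)) *
        ∏ k, ((s (Sum.inr k) : ℝ) + 1) ≤ C

end Vale.Agent.P144DM
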